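import Mathlib

namespace Vale.Agent.Results.P262.LowerBound

open Finset
open scoped ENNReal RealInnerProductSpace

/-- auxiliary: `N` vectors of the unit ball force some signed prefix sum of squared norm `≥ c`. -/
def Forces (E : Type*) [NormedAddCommGroup E] [InnerProductSpace ℝ E] (N : ℕ) (c : ℝ) : Prop :=
  ∃ v : ℕ → E, (∀ i, ‖v i‖ ≤ 1) ∧ ∀ ε : ℕ → ℝ, (∀ i, ε i = 1 ∨ ε i = -1) →
    ∃ k ≤ N, c ≤ ‖∑ i ∈ range k, ε i • v i‖ ^ 2

section kill
variable {E : Type*} [NormedAddCommGroup E] [InnerProductSpace ℝ E]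

/-- prepend an element to a sequence -/
def consSeq {α : Type*} (a : α) (w : ℕ → α) : ℕ → α
  | 0 => a
  | (i + 1) => w i

@[simp] lemma consSeq_zero {α : Type*} (a : α) (w : ℕ → α) : consSeq a w 0 = a := rfl
@[simp] lemma consSeq_succ {α : Type*} (a : α) (w : ℕ → α) (i : ℕ) : consSeq a w (i + 1) = w i := rfl

lemma exists_unit_inner (H : ∀ p : E, ∃ u : E, ‖u‖ = 1 ∧ ⟪p, u⟫ = 0) (p : E) (t : ℝ)
    (htp : t ^ 2 ≤ ‖p‖ ^ 2) (hp : 0 < ‖p‖ ^ 2) :
    ∃ w : E, ‖w‖ = 1 ∧ ⟪p, w⟫ = t := by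
  obtain ⟨u, hu1, hu0⟩ := H p
  set a : ℝ := t / ‖p‖ ^ 2 with ha
  set b : ℝ := Real.sqrt (1 - t ^ 2 / ‖p‖ ^ 2) with hb
  have hb2 : b ^ 2 = 1 - t ^ 2 / ‖p‖ ^ 2 := by
    rw [hb, Real.sq_sqrt]
    have : t ^ 2 / ‖p‖ ^ 2 ≤ 1 := by
      rw [div_le_one hp]; exact htp
    linarith
  have hp' : ‖p‖ ≠ 0 := by
    intro h; rw [h] at hp; simp at hp
  refine ⟨a • p + b • u, ?_, ?_⟩
  · have h : ‖a • p + b • u‖ ^ 2 = 1 := by
      rw [@norm_add_sq_real, norm_smul, norm_smul, inner_smul_left, inner_smul_right, hu0, hu1]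
      simp only [Real.norm_eq_abs, mul_pow, sq_abs, mul_zero, mul_one, add_zero,
        RCLike.conj_to_real]
      rw [hb2, ha]
      field_simp
      ring
    have h0 : 0 ≤ ‖a • p + b • u‖ := norm_nonneg _
    nlinarith [h, h0]
  · rw [inner_add_right, inner_smul_right, inner_smul_right, hu0, real_inner_self_eq_norm_sq, ha]
    field_simp
    ring

/-- The kill lemma: a point whose squared norm exceeds `R2 - 2` by at least `2^{-m}` is forced out
of the ball of squared radius `R2` by `m+1` suitable unit vectors. -/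
lemma kill (H : ∀ p : E, ∃ u : E, ‖u‖ = 1 ∧ ⟪p, u⟫ = 0) (R2 : ℝ) (m : ℕ) :
    ∀ p : E, 1 ≤ ‖p‖ ^ 2 → R2 - 2 + (1 / 2 : ℝ) ^ m ≤ ‖p‖ ^ 2 →
      ∃ w : ℕ → E, (∀ i, ‖w i‖ ≤ 1) ∧ ∀ ε : ℕ → ℝ, (∀ i, ε i = 1 ∨ ε i = -1) →
        ∃ k ≤ m + 1, R2 ≤ ‖p + ∑ i ∈ range k, ε i • w i‖ ^ 2 := by
  induction m with
  | zero =>
    intro p _ hp
    obtain ⟨u, hu1, hu0⟩ := H p
    refine ⟨fun _ => u, fun _ => hu1.le, fun ε hε => ⟨1, le_refl _, ?_⟩⟩
    simp only [range_one, sum_singleton]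
    rw [@norm_add_sq_real, inner_smul_right, hu0, norm_smul, hu1]
    have : |ε 0| = 1 := by rcases hε 0 with h | h <;> simp [h]
    simp only [Real.norm_eq_abs, this]
    norm_num at hp ⊢
    linarith
  | succ m ih =>
    intro p hp1 hp
    by_cases hbig : R2 ≤ ‖p‖ ^ 2
    · exact ⟨fun _ => 0, fun _ => by simp, fun ε _ => ⟨0, by omega, by simpa using hbig⟩⟩
    rw [not_le] at hbig
    by_cases hbig' : R2 - 1 ≤ ‖p‖ ^ 2
    · -- one orthogonal step suffices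
      obtain ⟨u, hu1, hu0⟩ := H p
      refine ⟨fun _ => u, fun _ => hu1.le, fun ε hε => ⟨1, by omega, ?_⟩⟩
      simp only [range_one, sum_singleton]
      rw [@norm_add_sq_real, inner_smul_right, hu0, norm_smul, hu1]
      have : |ε 0| = 1 := by rcases hε 0 with h | h <;> simp [h]
      simp only [Real.norm_eq_abs, this]
      norm_num
      linarith
    rw [not_le] at hbig'
    set t : ℝ := (R2 - ‖p‖ ^ 2 - 1) / 2 with ht
    have hpow : (0 : ℝ) < (1 / 2 : ℝ) ^ (m + 1) := by positivity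
    have ht0 : 0 < t := by rw [ht]; linarith
    have ht1 : t ≤ 1 / 2 := by rw [ht]; linarith
    have htp : t ^ 2 ≤ ‖p‖ ^ 2 := by nlinarith
    obtain ⟨w0, hw1, hw0⟩ := exists_unit_inner H p t htp (by linarith)
    have hq : ‖p - w0‖ ^ 2 = 2 * ‖p‖ ^ 2 + 2 - R2 := by
      rw [@norm_sub_sq_real, hw0, hw1, ht]; ring
    have hq' : ‖p + w0‖ ^ 2 = R2 := by
      rw [@norm_add_sq_real, hw0, hw1, ht]; ring
    have hpow' : (1 / 2 : ℝ) ^ (m + 1) = (1 / 2) ^ m / 2 := by rw [pow_succ]; ring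
    obtain ⟨w, hw, hkill⟩ := ih (p - w0) (by rw [hq]; linarith) (by rw [hq]; linarith)
    refine ⟨consSeq w0 w, ?_, ?_⟩
    · intro i; cases i with
      | zero => exact hw1.le
      | succ i => exact hw i
    · intro ε hε
      rcases hε 0 with h0 | h0
      · refine ⟨1, by omega, ?_⟩
        simp only [range_one, sum_singleton, h0, one_smul, consSeq_zero]
        exact hq'.ge
      · obtain ⟨k, hk, hR⟩ := hkill (fun i => ε (i + 1)) (fun i => hε (i + 1))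
        refine ⟨k + 1, by omega, ?_⟩
        rw [sum_range_succ']
        simp only [h0, consSeq_zero, consSeq_succ]
        have : p + (∑ i ∈ range k, ε (i + 1) • w i + (-1 : ℝ) • w0)
            = p - w0 + ∑ i ∈ range k, ε (i + 1) • w i := by
          rw [neg_one_smul]; abel
        rw [this]
        exact hR

lemma forces_plane (H : ∀ p : E, ∃ u : E, ‖u‖ = 1 ∧ ⟪p, u⟫ = 0) (m : ℕ) :
    Forces E (m + 2) (3 - (1 / 2 : ℝ) ^ m) := by
  obtain ⟨e, he, -⟩ := H 0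
  obtain ⟨w, hw, hkill⟩ := kill H (3 - (1 / 2 : ℝ) ^ m) m e (by rw [he]; norm_num)
    (by rw [he]; ring_nf; exact le_refl _)
  refine ⟨consSeq e w, ?_, ?_⟩
  · intro i; cases i with
    | zero => exact he.le
    | succ i => exact hw i
  · intro ε hε
    rcases hε 0 with h0 | h0
    · obtain ⟨k, hk, hR⟩ := hkill (fun i => ε (i + 1)) (fun i => hε (i + 1))
      refine ⟨k + 1, by omega, ?_⟩
      rw [sum_range_succ']
      simp only [h0, one_smul, consSeq_zero, consSeq_succ]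
      rw [add_comm]
      exact hR
    · obtain ⟨k, hk, hR⟩ := hkill (fun i => - ε (i + 1))
        (fun i => by rcases hε (i + 1) with h | h <;> simp [h])
      refine ⟨k + 1, by omega, ?_⟩
      rw [sum_range_succ']
      simp only [h0, consSeq_zero, consSeq_succ]
      have : (∑ i ∈ range k, ε (i + 1) • w i + (-1 : ℝ) • e)
          = - (e + ∑ i ∈ range k, (- ε (i + 1)) • w i) := by
        simp only [neg_smul, sum_neg_distrib, one_smul]; abel
      rw [this, norm_neg]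
      exact hR

lemma forces_lift {F : Type*} [NormedAddCommGroup F] [InnerProductSpace ℝ F] (φ : E →ₗᵢ[ℝ] F)
    (e : F) (he : ‖e‖ = 1) (horth : ∀ x, ⟪φ x, e⟫ = 0) {N : ℕ} {c : ℝ} (h : Forces E N c) :
    Forces F (N + 1) (c + 1) := by
  obtain ⟨v, hv, hf⟩ := h
  refine ⟨consSeq e (fun i => φ (v i)), ?_, ?_⟩
  · intro i; cases i with
    | zero => exact he.le
    | succ i => simpa using hv i
  · intro ε hε
    obtain ⟨k, hk, hR⟩ := hf (fun i => ε (i + 1)) (fun i => hε (i + 1))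
    refine ⟨k + 1, by omega, ?_⟩
    rw [sum_range_succ']
    simp only [consSeq_zero, consSeq_succ]
    have h1 : ∑ i ∈ range k, ε (i + 1) • φ (v i) = φ (∑ i ∈ range k, ε (i + 1) • v i) := by
      simp [map_sum]
    rw [h1, @norm_add_sq_real, inner_smul_right, horth, norm_smul, he, φ.norm_map]
    have : |ε 0| = 1 := by rcases hε 0 with h | h <;> simp [h]
    simp only [Real.norm_eq_abs, this]
    norm_num
    linarith

end kill

lemma exists_orth_unit {F : Type} [NormedAddCommGroup F] [InnerProductSpace ℝ F]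
    [FiniteDimensional ℝ F] (hF : 2 ≤ Module.finrank ℝ F) (p : F) :
    ∃ u : F, ‖u‖ = 1 ∧ ⟪p, u⟫ = 0 := by
  have h1 : Module.finrank ℝ (ℝ ∙ p : Submodule ℝ F) ≤ 1 := by
    have h := finrank_span_le_card (R := ℝ) ({p} : Set F)
    simpa using h
  have h2 := Submodule.finrank_add_finrank_orthogonal (ℝ ∙ p : Submodule ℝ F)
  have h3 : 0 < Module.finrank ℝ ((ℝ ∙ p : Submodule ℝ F)ᗮ) := by omega
  obtain ⟨x, hx⟩ := Module.finrank_pos_iff_exists_ne_zero.mp h3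
  have hx0 : (x : F) ≠ 0 := by simpa using hx
  have hxn : ‖(x : F)‖ ≠ 0 := by simpa using hx0
  refine ⟨(‖(x : F)‖)⁻¹ • (x : F), ?_, ?_⟩
  · rw [norm_smul, norm_inv, norm_norm, inv_mul_cancel₀ hxn]
  · rw [inner_smul_right, Submodule.mem_orthogonal_singleton_iff_inner_right.mp x.2, mul_zero]

lemma forces_finrank (m : ℕ) : ∀ (n : ℕ) (F : Type) [NormedAddCommGroup F] [InnerProductSpace ℝ F]
    [FiniteDimensional ℝ F], Module.finrank ℝ F = n + 2 →
    Forces F (n + 2 + m) ((n : ℝ) + 3 - (1 / 2 : ℝ) ^ m) := by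
  intro n
  induction n with
  | zero =>
    intro F _ _ _ hF
    have := forces_plane (E := F) (exists_orth_unit (by omega)) m
    simpa [add_comm] using this
  | succ n ih =>
    intro F _ _ _ hF
    obtain ⟨e, he, -⟩ := exists_orth_unit (F := F) (by omega) 0
    have he0 : e ≠ 0 := by
      intro h; rw [h] at he; simp at he
    have : Fact (Module.finrank ℝ F = (n + 2) + 1) := ⟨by omega⟩
    have hfr : Module.finrank ℝ ((ℝ ∙ e : Submodule ℝ F)ᗮ) = n + 2 :=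
      Submodule.finrank_orthogonal_span_singleton he0
    have h := ih ((ℝ ∙ e : Submodule ℝ F)ᗮ) hfr
    have h' := forces_lift ((ℝ ∙ e : Submodule ℝ F)ᗮ).subtypeₗᵢ e he
      (fun x => by
        have := Submodule.mem_orthogonal_singleton_iff_inner_left.mp x.2
        simpa using this) h
    have e1 : n + 2 + m + 1 = n + 1 + 2 + m := by omega
    have e2 : (n : ℝ) + 3 - (1 / 2 : ℝ) ^ m + 1 = ((n + 1 : ℕ) : ℝ) + 3 - (1 / 2 : ℝ) ^ m := by
      push_cast; ring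
    rw [e1, e2] at h'
    exact h'

/-- The signed prefix sum `∑_{i < k} ε_i v_i` of a sequence `v_0, …, v_{N-1}` in `ℝ^d`. -/
noncomputable def prefixSum {d N : ℕ} (v : Fin N → EuclideanSpace ℝ (Fin d)) (ε : Fin N → ℤˣ)
    (k : ℕ) : EuclideanSpace ℝ (Fin d) :=
  ∑ i : Fin N with i.val < k, ((ε i : ℤ) : ℝ) • v i

/-- `σ(d,N) = sup_{v_1,…,v_N ∈ B_2^d} min_{ε ∈ {-1,1}^N} max_{0 ≤ k ≤ N} ‖∑_{i ≤ k} ε_i v_i‖₂`,
as an element of `[0,∞]`. -/
noncomputable def sigmaN (d N : ℕ) : ℝ≥0∞ :=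
  ⨆ v : {v : Fin N → EuclideanSpace ℝ (Fin d) // ∀ i, ‖v i‖ ≤ 1},
    ⨅ ε : Fin N → ℤˣ, ⨆ k : Fin (N + 1), ‖prefixSum v.1 ε k‖ₑ

/-- `σ(d) = sup_N σ(d,N)`. -/
noncomputable def sigma (d : ℕ) : ℝ≥0∞ := ⨆ N : ℕ, sigmaN d N

lemma prefixSum_eq {d N : ℕ} (v : ℕ → EuclideanSpace ℝ (Fin d)) (ε : Fin N → ℤˣ) (k : ℕ)
    (hk : k ≤ N) :
    prefixSum (fun i : Fin N => v i) ε k =
      ∑ i ∈ range k, (if h : i < N then (((ε ⟨i, h⟩ : ℤˣ) : ℤ) : ℝ) else 1) • v i := by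
  unfold prefixSum
  rw [Finset.sum_filter]
  have h1 := Fin.sum_univ_eq_sum_range
    (fun i => if i < k then (if h : i < N then (((ε ⟨i, h⟩ : ℤˣ) : ℤ) : ℝ) else 1) • v i else 0) N
  have h2 : ∀ i : Fin N, (if i.val < k then (((ε i : ℤˣ) : ℤ) : ℝ) • v i else 0) =
      (if i.val < k then (if h : i.val < N then (((ε ⟨i.val, h⟩ : ℤˣ) : ℤ) : ℝ) else 1) • v i
        else 0) := by
    intro i
    simp [i.2]
  rw [Finset.sum_congr rfl (fun i _ => h2 i), h1, ← Finset.sum_filter]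
  congr 1
  ext i
  simp only [mem_filter, mem_range]
  omega

lemma le_sigmaN_of_forces {d N : ℕ} {c : ℝ} (h : Forces (EuclideanSpace ℝ (Fin d)) N c) :
    ENNReal.ofReal (Real.sqrt c) ≤ sigmaN d N := by
  obtain ⟨v, hv, hf⟩ := h
  unfold sigmaN
  refine le_iSup_of_le ⟨fun i : Fin N => v i, fun i => hv i⟩ ?_
  refine le_iInf fun ε => ?_
  obtain ⟨k, hk, hR⟩ := hf (fun i => if h : i < N then (((ε ⟨i, h⟩ : ℤˣ) : ℤ) : ℝ) else 1) (by
    intro i
    by_cases h : i < N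
    · rcases Int.units_eq_one_or (ε ⟨i, h⟩) with h' | h' <;> simp [h, h']
    · simp [h])
  refine le_iSup_of_le ⟨k, by omega⟩ ?_
  simp only
  rw [prefixSum_eq v ε k hk, ← ofReal_norm]
  apply ENNReal.ofReal_le_ofReal
  rw [Real.sqrt_le_left (norm_nonneg _)] 
  exact hR

theorem result : ∀ d : ℕ, 2 ≤ d →
    (∀ N : ℕ, d ≤ N →
      ENNReal.ofReal (Real.sqrt ((d : ℝ) + 1 - (1 / 2 : ℝ) ^ (N - d))) ≤ sigmaN d N) ∧
    ENNReal.ofReal (Real.sqrt ((d : ℝ) + 1)) ≤ sigma d := by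
  intro d hd
  have key : ∀ N : ℕ, d ≤ N →
      ENNReal.ofReal (Real.sqrt ((d : ℝ) + 1 - (1 / 2 : ℝ) ^ (N - d))) ≤ sigmaN d N := by
    intro N hN
    obtain ⟨n, rfl⟩ : ∃ n, d = n + 2 := ⟨d - 2, by omega⟩
    obtain ⟨m, rfl⟩ : ∃ m, N = n + 2 + m := ⟨N - (n + 2), by omega⟩
    have h := forces_finrank m n (EuclideanSpace ℝ (Fin (n + 2))) (by simp)
    have h' := le_sigmaN_of_forces h
    have e1 : n + 2 + m - (n + 2) = m := by omega
    have e2 : ((n + 2 : ℕ) : ℝ) + 1 = (n : ℝ) + 3 := by push_cast; ring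
    rw [e1, e2]
    exact h'
  refine ⟨key, ?_⟩
  apply le_of_forall_lt
  intro a ha
  have ht : Filter.Tendsto
      (fun m : ℕ => ENNReal.ofReal (Real.sqrt ((d : ℝ) + 1 - (1 / 2 : ℝ) ^ m))) Filter.atTop
      (nhds (ENNReal.ofReal (Real.sqrt ((d : ℝ) + 1)))) := by
    apply ENNReal.tendsto_ofReal
    apply (Real.continuous_sqrt.tendsto _).comp
    have h0 : Filter.Tendsto (fun m : ℕ => (1 / 2 : ℝ) ^ m) Filter.atTop (nhds 0) :=
      tendsto_pow_atTop_nhds_zero_of_lt_one (by norm_num) (by norm_num)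
    simpa using (tendsto_const_nhds (x := (d : ℝ) + 1)).sub h0
  obtain ⟨m, hm⟩ := (ht.eventually (lt_mem_nhds ha)).exists
  calc a < ENNReal.ofReal (Real.sqrt ((d : ℝ) + 1 - (1 / 2 : ℝ) ^ m)) := hm
    _ ≤ sigmaN d (d + m) := by
        have := key (d + m) (by omega)
        simpa using this
    _ ≤ sigma d := le_iSup (fun N => sigmaN d N) (d + m)

end Vale.Agent.Results.P262.LowerBound
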