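import Mathlib
import Vale.Agent.Lib.P262.Main
import Vale.Agent.Lib.P262.Minimax

namespace Vale.Agent.Results.P262.MeanSquare

open Finset
open Vale.Agent.Lib.P262

/-- The signed prefix sum `∑_{i<k} ε_i v_i` of a sequence `v_0, v_1, …` in `ℝ^d`. -/
noncomputable def prefixSum {d : ℕ} (v : ℕ → EuclideanSpace ℝ (Fin d)) (ε : ℕ → ℝ) (k : ℕ) :
    EuclideanSpace ℝ (Fin d) := ∑ i ∈ range k, ε i • v i

/-- `ε` is a sequence of signs. -/
def IsSign (ε : ℕ → ℝ) : Prop := ∀ i, ε i = 1 ∨ ε i = -1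

theorem result :
    -- (i) weighted mean-square bound, independent of the number of vectors
    (∀ d N : ℕ, 1 ≤ d → ∀ v : ℕ → EuclideanSpace ℝ (Fin d), (∀ i, ‖v i‖ ≤ 1) →
      ∀ μ : ℕ → ℝ, (∀ k, 0 ≤ μ k) →
      ∃ ε, IsSign ε ∧ ∑ k ∈ range (N + 1), μ k * ‖prefixSum v ε k‖ ^ 2
        ≤ 4 * d * ∑ k ∈ range (N + 1), μ k) ∧
    -- (ii) one probability distribution on sign sequences that is good for every prefix
    (∀ d N : ℕ, 1 ≤ d → ∀ v : ℕ → EuclideanSpace ℝ (Fin d), (∀ i, ‖v i‖ ≤ 1) →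
      ∃ (ι : Type) (_ : Fintype ι) (p : ι → ℝ) (ε : ι → ℕ → ℝ),
        (∀ j, 0 ≤ p j) ∧ ∑ j, p j = 1 ∧ (∀ j, IsSign (ε j)) ∧
        ∀ k ≤ N, ∑ j, p j * ‖prefixSum v (ε j) k‖ ^ 2 ≤ 4 * d) ∧
    -- (iii) few large prefix sums
    (∀ d N : ℕ, 1 ≤ d → ∀ v : ℕ → EuclideanSpace ℝ (Fin d), (∀ i, ‖v i‖ ≤ 1) →
      ∃ ε, IsSign ε ∧ ∀ t : ℝ, 0 ≤ t →
        (((range (N + 1)).filter (fun k => t ≤ ‖prefixSum v ε k‖)).card : ℝ) * t ^ 2
          ≤ 4 * d * (N + 1)) ∧
    -- (iv) the order `d` cannot be improved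
    (∀ d : ℕ, ∃ v : ℕ → EuclideanSpace ℝ (Fin d), (∀ i, ‖v i‖ ≤ 1) ∧
      ∀ ε, IsSign ε → ‖prefixSum v ε d‖ ^ 2 = d) := by
  classical
  have hi : ∀ d N : ℕ, 1 ≤ d → ∀ v : ℕ → EuclideanSpace ℝ (Fin d), (∀ i, ‖v i‖ ≤ 1) →
      ∀ μ : ℕ → ℝ, (∀ k, 0 ≤ μ k) →
      ∃ ε, IsSign ε ∧ ∑ k ∈ range (N + 1), μ k * ‖prefixSum v ε k‖ ^ 2
        ≤ 4 * d * ∑ k ∈ range (N + 1), μ k := by
    intro d N hd v hv μ hμ
    obtain ⟨s, _, hs⟩ := core_nonneg v hv μ hμ hd N
    exact ⟨sg s, sg_eq s, hs⟩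
  refine ⟨hi, ?_, ?_, ?_⟩
  · intro d N hd v hv
    obtain ⟨p, hp0, hp1, hp⟩ := exists_distribution v hv hd N
    refine ⟨↥((range N).powerset), inferInstance, fun s => p s, fun s => sg s,
      fun s => hp0 s, ?_, fun s => sg_eq s, ?_⟩
    · rw [Finset.sum_coe_sort (range N).powerset p]; exact hp1
    · intro k hk
      have := hp k hk
      rw [← Finset.sum_coe_sort] at this
      exact this
  · intro d N hd v hv
    obtain ⟨ε, hε, hb⟩ := hi d N hd v hv (fun _ => 1) (fun _ => zero_le_one)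
    refine ⟨ε, hε, ?_⟩
    intro t ht
    simp only [one_mul, sum_const, card_range, nsmul_eq_mul, mul_one] at hb
    calc (((range (N + 1)).filter (fun k => t ≤ ‖prefixSum v ε k‖)).card : ℝ) * t ^ 2
        = ∑ k ∈ (range (N + 1)).filter (fun k => t ≤ ‖prefixSum v ε k‖), t ^ 2 := by
          rw [sum_const, nsmul_eq_mul]
      _ ≤ ∑ k ∈ (range (N + 1)).filter (fun k => t ≤ ‖prefixSum v ε k‖),
            ‖prefixSum v ε k‖ ^ 2 := by
          apply sum_le_sum
          intro k hk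
          have := (mem_filter.1 hk).2
          gcongr
      _ ≤ ∑ k ∈ range (N + 1), ‖prefixSum v ε k‖ ^ 2 :=
          sum_le_sum_of_subset_of_nonneg (filter_subset _ _) (fun _ _ _ => sq_nonneg _)
      _ ≤ 4 * d * (N + 1) := by
          push_cast at hb
          exact hb
  · intro d
    refine ⟨fun i => if h : i < d then EuclideanSpace.single ⟨i, h⟩ 1 else 0, ?_, ?_⟩
    · intro i
      simp only
      split_ifs <;> simp
    · intro ε hε
      have hcoord : ∀ c : Fin d, (prefixSum (fun i => if h : i < d then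
          EuclideanSpace.single (⟨i, h⟩ : Fin d) (1 : ℝ) else 0) ε d) c = ε c := by
        intro c
        have := pre_apply (fun i => if h : i < d then
          EuclideanSpace.single (⟨i, h⟩ : Fin d) (1 : ℝ) else 0) ε d c
        unfold pre at this
        unfold prefixSum
        rw [this, sum_eq_single (c : ℕ)]
        · simp
        · intro j hj hne
          have hj' := mem_range.1 hj
          rw [dif_pos hj']
          have : c ≠ ⟨j, hj'⟩ := by
            intro h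
            apply hne
            rw [h]
          simp [this]
        · intro h
          exact absurd (mem_range.2 c.2) h
      rw [EuclideanSpace.real_norm_sq_eq]
      have : ∀ c : Fin d, ((prefixSum (fun i => if h : i < d then
          EuclideanSpace.single (⟨i, h⟩ : Fin d) (1 : ℝ) else 0) ε d) c) ^ 2 = 1 := by
        intro c
        rw [hcoord c]
        rcases hε c with h | h <;> rw [h] <;> norm_num
      rw [sum_congr rfl (fun c _ => this c)]
      simp

end Vale.Agent.Results.P262.MeanSquare
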