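import Mathlib
import Vale.Agent.Lib.P262.Main
import Vale.Agent.Lib.P262.Minimax
import Vale.Agent.Lib.P262.Steinitz

namespace Vale.Agent.Results.P262.MeanSquareSteinitz

open Finset
open Vale.Agent.Lib.P262

/-- The signed prefix sum `∑_{i<k} ε_i v_i` of a sequence `v_0, v_1, …` in `ℝ^d`. -/
noncomputable def prefixSum {d : ℕ} (v : ℕ → EuclideanSpace ℝ (Fin d)) (ε : ℕ → ℝ) (k : ℕ) :
    EuclideanSpace ℝ (Fin d) := ∑ i ∈ range k, ε i • v i

/-- `ε` is a sequence of signs. -/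
def IsSign (ε : ℕ → ℝ) : Prop := ∀ i, ε i = 1 ∨ ε i = -1

/-- The `k`-th partial sum `∑_{i<k} v_{σ(i)}` of the family `v` rearranged by `σ`. -/
noncomputable def partialSum {d N : ℕ} (v : Fin N → EuclideanSpace ℝ (Fin d))
    (σ : Equiv.Perm (Fin N)) (k : ℕ) : EuclideanSpace ℝ (Fin d) :=
  ∑ i ∈ univ.filter (fun i : Fin N => (i : ℕ) < k), v (σ i)

theorem result :
    -- (A) signed prefixes: weighted mean-square bound, independent of the number of vectors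
    (∀ d N : ℕ, 1 ≤ d → ∀ v : ℕ → EuclideanSpace ℝ (Fin d), (∀ i, ‖v i‖ ≤ 1) →
      ∀ μ : ℕ → ℝ, (∀ k, 0 ≤ μ k) →
      ∃ ε, IsSign ε ∧ ∑ k ∈ range (N + 1), μ k * ‖prefixSum v ε k‖ ^ 2
        ≤ 4 * d * ∑ k ∈ range (N + 1), μ k) ∧
    -- (B) signed prefixes: one probability distribution on sign sequences good for every prefix
    (∀ d N : ℕ, 1 ≤ d → ∀ v : ℕ → EuclideanSpace ℝ (Fin d), (∀ i, ‖v i‖ ≤ 1) →
      ∃ (ι : Type) (_ : Fintype ι) (p : ι → ℝ) (ε : ι → ℕ → ℝ),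
        (∀ j, 0 ≤ p j) ∧ ∑ j, p j = 1 ∧ (∀ j, IsSign (ε j)) ∧
        ∀ k ≤ N, ∑ j, p j * ‖prefixSum v (ε j) k‖ ^ 2 ≤ 4 * d) ∧
    -- (C) zero-sum rearrangement: the average squared partial sum is at most `4 d`
    (∀ d N : ℕ, 1 ≤ d → ∀ v : Fin N → EuclideanSpace ℝ (Fin d), (∀ i, ‖v i‖ ≤ 1) →
      ∑ i, v i = 0 →
      ∃ σ : Equiv.Perm (Fin N), ∑ k ∈ range (N + 1), ‖partialSum v σ k‖ ^ 2
        ≤ 4 * d * (N + 1)) := by
  classical
  refine ⟨?_, ?_, ?_⟩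
  · intro d N hd v hv μ hμ
    obtain ⟨s, _, hs⟩ := core_nonneg v hv μ hμ hd N
    exact ⟨sg s, sg_eq s, hs⟩
  · intro d N hd v hv
    obtain ⟨p, hp0, hp1, hp⟩ := exists_distribution v hv hd N
    refine ⟨↥((range N).powerset), inferInstance, fun s => p s, fun s => sg s,
      fun s => hp0 s, ?_, fun s => sg_eq s, ?_⟩
    · rw [Finset.sum_coe_sort (range N).powerset p]; exact hp1
    · intro k hk
      have := hp k hk
      rw [← Finset.sum_coe_sort] at this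
      exact this
  · intro d N hd v hv hsum
    exact steinitz_perm hd N v hv hsum

end Vale.Agent.Results.P262.MeanSquareSteinitz
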